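import Vale.Agent.P155.Defs2

/-!
# P155: interface statements of the blocks (as `Prop`s), v0
Every block owner proves the statements of his block in this or an equivalent stronger form and
tells the consumers. NOTHING here is assumed anywhere: the final file proves all of them.
-/

namespace Vale.Agent.P155.Skel

open Finset

/-- `T` fits into the box of radius `R`. -/
def Fits (T : Temp) (R : ℕ) : Prop := T.faceSet ⊆ (box (0, 0) R : Set Pt)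

/-- `V` is a vertex subset of the Temperleyan graph left unmatched by the outside: some matching of
`T.V` maps `V` to itself. -/
def Sub (T : Temp) (V : Finset Pt) : Prop := ∃ m ∈ PM T.V, ∀ v ∈ V, v ∈ T.V ∧ m v ∈ V

/-! ## Block A: combinatorics -/

def A_fin : Prop := ∀ T : Temp, T.closedVerts.Finite ∧ T.faceSet.Finite ∧ T.v0 ∈ T.closedVerts

def A_card : Prop := ∀ T : Temp, (T.V.filter White).card = (T.V.filter Black).card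

/-- inverse relations -/
def A_inv : Prop := ∀ (T : Temp) (V : Finset Pt), Sub T V → (KM V).det ≠ 0 ∧ 0 < Z V ∧
  (∀ w w', White w → White w' → w ∈ V → w' ∈ V →
    ∑ b ∈ nbrs w', K w' b * Kinv V b w = if w' = w then 1 else 0) ∧
  (∀ b b', Black b → Black b' → b ∈ V → b' ∈ V →
    ∑ w ∈ nbrs b', Kinv V b w * K w b' = if b' = b then 1 else 0)

/-- one-point function -/
def A_one : Prop := ∀ (T : Temp) (V : Finset Pt), Sub T V → ∀ w b, White w → w ∈ V → b ∈ V → Adj w b →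
  Ex1 V (fun m => by classical exact if m w = b then (1 : ℝ) else 0) = K w b * Kinv V b w

/-- two-point function -/
def A_two : Prop := ∀ (T : Temp) (V : Finset Pt), Sub T V → ∀ w b w' b', White w → White w' →
  w ∈ V → b ∈ V → w' ∈ V → b' ∈ V → Adj w b → Adj w' b' → w ≠ w' →
  Ex1 V (fun m => by classical exact if m w = b ∧ m w' = b' then (1 : ℝ) else 0) =
    K w b * K w' b' * (Kinv V b w * Kinv V b' w' - Kinv V b w' * Kinv V b' w)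

/-- generating function of weighted matchings -/
def A_gen : Prop := ∀ (T : Temp) (V : Finset Pt), Sub T V → ∀ x : Pt → Pt → ℝ,
  Ex1 V (fun m => ∏ w ∈ V.filter White, (1 + x w (m w))) =
    Matrix.det (1 + Matrix.of (fun (w w' : {v // v ∈ V.filter White}) =>
      ∑ b ∈ nbrs w, x w b * K w b * Kinv V b w'))

/-- signed at most unsigned -/
def A_le : Prop := ∀ (T : Temp) (V : Finset Pt), Sub T V → ∀ b w, b ∈ V → w ∈ V → Black b → White w →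
  |Kinv V b w| ≤ (Z (V \ {w, b}) : ℝ) / Z V

/-- Markov property for the outside of a set, one copy. -/
def A_mark : Prop := ∀ (V B : Finset Pt) (g : (Pt → Pt) → ℝ),
  Ex1 V g = Ex1 V (fun m => Ex1 (Vin V B m)
    (fun m' => g (fun v => by classical exact if v ∈ Vin V B m then m' v else m v)))

/-- averaging the unsigned monomer ratio, one copy -/
def A_EM : Prop := ∀ (V B : Finset Pt) (w b : Pt), 0 < Z V →
  Ex1 V (fun m => (Z (Vin V B m \ {w, b}) : ℝ) / Z (Vin V B m)) ≤ (Z (V \ {w, b}) : ℝ) / Z V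

/-- swap inequality -/
def A_swap : Prop := ∀ (V : Finset Pt) (w b' b0 w' : Pt), w ∈ V → b' ∈ V → b0 ∈ V → w' ∈ V →
  White w → White w' → Adj w b0 → Adj w' b' → w ≠ w' → b0 ≠ b' →
  Z (V \ {w, b'}) * Z (V \ {b0, w'}) ≤ 2 * Z V ^ 2

/-- Kuo-type inequality -/
def A_kuo : Prop := ∀ (V Ws Bs : Finset Pt) (w : Pt), w ∈ Ws → Ws ⊆ V → Bs ⊆ V →
  (∀ v ∈ Ws, White v) → (∀ v ∈ Bs, Black v) →
  Z (V \ (Ws ∪ Bs)) * Z V ≤ ∑ b ∈ Bs, Z (V \ {w, b}) * Z (V \ ((Ws \ {w}) ∪ (Bs \ {b})))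

/-! ## Block B -/

def B_plane : Prop := ∃ A, IsPlane A

def B_dom : Prop := ∀ A, IsPlane A → ∃ C : ℝ, ∀ (T : Temp) (w b : Pt), White w → Black b →
  w ∈ T.V → b ∈ T.V →
  |Kinv T.V b w| ≤ 1 ∧
  (2 * dn b w ≤ dF T.faceSet w → |Kinv T.V b w - Kp A b w| ≤ C / (1 + dF T.faceSet w)) ∧
  (dF T.faceSet w ≤ 8 * dn b w → |Kinv T.V b w| ≤ C / (1 + dF T.faceSet w))

/-- unsigned monomer ratios are at most linear in the distance, in the bulk -/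
def B_mono : Prop := ∃ C : ℝ, ∀ (T : Temp) (w b : Pt), White w → Black b → w ∈ T.V → b ∈ T.V →
  C * (1 + dn b w) ≤ dF T.faceSet w → (Z (T.V \ {w, b}) : ℝ) / Z T.V ≤ C * (1 + dn b w)

/-! ## Block C -/

/-- exponential moments of the height at one face -/
def C_height : Prop := ∃ c > (0 : ℝ), ∃ C : ℝ, ∀ (R : ℕ) (T : Temp), Fits T R → ∀ x : Pt,
  Ex T.V (fun ω => Real.cosh (c / Real.log (R + 2) * (h ω x : ℝ))) ≤ C

/-- exponential moments of local linear statistics of one copy -/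
def C_local : Prop := ∃ c > (0 : ℝ), ∃ C : ℝ, ∀ (T : Temp) (x : Pt) (t : ℕ), 1 ≤ t →
  4 * t ≤ dF T.faceSet x → ∀ ψ : Pt → Pt → ℝ, (∀ w b, |ψ w b| ≤ 1) → (∀ w b, w ∉ box x t → ψ w b = 0) →
  let L : (Pt → Pt) → ℝ := fun m => ∑ w ∈ T.V.filter White, ψ w (m w)
  Ex1 T.V (fun m => Real.cosh (c / (t * Real.sqrt (Real.log (t + 2))) * (L m - Ex1 T.V L))) ≤ C

/-! ## Block D -/

/-- goodness of the conditional inverse Kasteleyn matrix, one copy -/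
def GoodM (A : Pt → ℝ) (T : Temp) (κ ε : ℝ) (x : Pt) (n : ℕ) (m : Pt → Pt) : Prop :=
  ∀ b w, Black b → White w → b ∈ box x ⌊(n : ℝ) ^ (1 - κ) / 20⌋₊ →
    w ∈ box x ⌊(n : ℝ) ^ (1 - κ) / 20⌋₊ →
    |Kinv (Vin T.V (box x n) m) b w - Kp A b w| ≤ (n : ℝ) ^ (-1 + κ + ε)

open Classical in
def D_good : Prop := ∀ A, IsPlane A → ∀ κ ε a p : ℝ, 0 < κ → κ < 1 / 10 → 0 < ε → 0 < a → 0 < p →
  ∃ C : ℝ, ∀ (R : ℕ) (T : Temp), 1 ≤ R → Fits T R → ∀ (x : Pt) (n : ℕ), (R : ℝ) ^ a ≤ n →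
  2 * n ≤ dF T.faceSet x →
  Ex1 T.V (fun m => if GoodM A T κ ε x n m then (0 : ℝ) else 1) ≤ C * (R : ℝ) ^ (-p)

/-! ## Block E -/

/-- final local Schwinger-Dyson statement for a deterministic box, `ζ` = outside of `box x n`.
`σ² = 2/π`. -/
def E_SD : Prop := ∃ c > (0 : ℝ), ∀ κ a p Θ C0 : ℝ, 0 < κ → κ < 1 / 100 → 0 < a → 0 < p → ∃ C : ℝ,
  ∀ (R : ℕ) (T : Temp), 1 ≤ R → Fits T R → ∀ (x : Pt) (n : ℕ), (R : ℝ) ^ a ≤ n →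
  2 * n ≤ dF T.faceSet x → ∃ G : Set Conf, Pr T.V (fun ω => ω ∉ G) ≤ C * (R : ℝ) ^ (-p) ∧
  ∀ ω ∈ DD T.V, ω ∈ G → ∀ (H : ℝ) (ψ φ : Pt → ℝ), IsBump x ⌊(n : ℝ) ^ (1 - 3 * κ)⌋₊ H ψ →
  (∀ y, |φ y| ≤ C0 / (R : ℝ) ^ 2) → ∀ θ : ℝ, |θ| ≤ Θ →
  ‖cEx T.V (outside (Fk T.V 0) (box x n))
      (fun ω' => (hf ω' (lap ψ) : ℂ) * Complex.exp (Complex.I * θ * hf ω' φ)) ω +
    Complex.I * θ * (2 / Real.pi) * pair ψ φ * cEx T.V (outside (Fk T.V 0) (box x n))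
      (fun ω' => Complex.exp (Complex.I * θ * hf ω' φ)) ω‖ ≤
    C * H * (R : ℝ) ^ κ * ((n : ℝ) ^ (-1 + κ) + (n / R : ℝ) ^ 2 * (n : ℝ) ^ (-c) + (n / R : ℝ) ^ 4)

/-! ## Block F -/

def F_pair : Prop := ∃ C : ℝ, ∀ (T : Temp) (q q' : Pt) (s r : ℕ), 1 ≤ s → C * (s : ℝ) ^ 3 ≤ r →
  r ≤ dn q q' → r ≤ dF T.faceSet q → r ≤ dF T.faceSet q' →
  Pr T.V (fun ω => ∃ L ∈ Loops ω, ∃ L' ∈ Loops ω, L ≠ L' ∧
    (∃ v ∈ L, v ∈ box q s) ∧ (∃ v ∈ L, v ∈ box q' s) ∧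
    (∃ v ∈ L', v ∈ box q s) ∧ (∃ v ∈ L', v ∈ box q' s)) ≤ C * (s : ℝ) ^ C / (r : ℝ) ^ 4

/-! ## Block A7: loops -/

/-- every square contour around a point off `O` meets the complement of `O` -/
def CP (O : Set Pt) : Prop := ∀ p, p ∉ O → ∀ r : ℕ, ∃ y, y ∉ O ∧ dn p y = r

def L_cp : Prop := ∀ (T : Temp) (k : ℕ), ∀ ω ∈ DD T.V, CP (Ok T k ω)

def L_expl : Prop := ∀ (T : Temp) (k : ℕ), IsExpl T.V (Fk T.V k)

/-- the height of the outer loops is explored, and all of the height off `O^{(k)}` -/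
def L_hk : Prop := ∀ (T : Temp) (k : ℕ), ∀ ω ∈ DD T.V, ∀ ω' ∈ DD T.V,
  AgreeOff (Fk T.V k ω) ω ω' → Ok T k ω' = Ok T k ω ∧ hk k ω' = hk k ω ∧
  ∀ x, x ∉ Ok T k ω → h ω x = hk k ω x

/-- the number of loops of level `> k` around both `x` and `y` -/
noncomputable def Nk (k : ℕ) (ω : Conf) (x y : Pt) : ℕ :=
  Set.ncard {L | L ∈ Loops ω ∧ k < level ω L ∧ surr ω L x ∧ surr ω L y}

/-- conditional covariance = expected number of common deeper loops (sign symmetry) -/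
def L_cov : Prop := ∀ (T : Temp) (k : ℕ), ∀ ω ∈ DD T.V, ∀ x y,
  cEx T.V (Fk T.V k) (fun ω' => ((h ω' x : ℝ) - hk k ω' x) * ((h ω' y : ℝ) - hk k ω' y)) ω =
  cEx T.V (Fk T.V k) (fun ω' => (Nk k ω' x y : ℝ)) ω

/-- loops of level `> k` around `x` and `y`: `x,y` lie under the same level-`k` loop -/
def L_same : Prop := ∀ (T : Temp) (k : ℕ), 1 ≤ k → ∀ ω ∈ DD T.V, ∀ x, x ∈ Ok T k ω →
  ∃ L ∈ Loops ω, level ω L = k ∧ surr ω L x ∧ ∀ L' ∈ Loops ω, k < level ω L' → surr ω L' x →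
    (∀ y, surr ω L' y → surr ω L y) ∧ L' ≠ L

/-- exponential moment of the number of loops from the height -/
def L_cosh : Prop := ∀ (T : Temp) (x : Pt) (t : ℝ),
  Ex T.V (fun ω => Real.cosh (t * (h ω x : ℝ))) = Ex T.V (fun ω => Real.cosh t ^ N ω x)

/-! ## Block G: discrete potential theory -/

def G_decay : Prop := ∃ β > (0 : ℝ), ∃ C : ℝ, ∀ (R : ℕ) (O : Set Pt) (φ u : Pt → ℝ), 1 ≤ R →
  O ⊆ (box (0, 0) R : Set Pt) → CP O → IsGreen O φ u → (∀ y, |φ y| ≤ 1 / (R : ℝ) ^ 2) →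
  ∀ x, |u x| ≤ C * ((dF O x : ℝ) / R) ^ β

/-- Visits lemma -/
def G_visits : Prop := ∃ C : ℝ, ∀ (R : ℕ) (O : Set Pt) (φ u : Pt → ℝ),
  O ⊆ (box (0, 0) R : Set Pt) → CP O → IsGreen O φ u → (∀ y, 0 ≤ φ y) → ∀ r : ℕ, 1 ≤ r →
  ∑ᶠ x ∈ {x | r ≤ dF O x ∧ dF O x ≤ 2 * r}, u x ≤ C * (r : ℝ) ^ 2 * ∑ᶠ x ∈ O, φ x

/-- localized visits lemma -/
def G_local : Prop := ∃ β > (0 : ℝ), ∃ C : ℝ, ∀ (R : ℕ) (O : Set Pt) (φ u : Pt → ℝ), 1 ≤ R →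
  O ⊆ (box (0, 0) R : Set Pt) → CP O → IsGreen O φ u → (∀ y, 0 ≤ φ y ∧ φ y ≤ 1 / (R : ℝ) ^ 2) →
  ∀ (p : Pt) (r ρ : ℕ), 1 ≤ r → r ≤ ρ → ρ ≤ R → p ∉ O →
  ∑ᶠ x ∈ {x | x ∈ box p ρ ∧ r ≤ dF O x ∧ dF O x ≤ 2 * r}, u x ≤ C * (r : ℝ) ^ 2 * ((ρ : ℝ) / R) ^ β

/-! ## Block H: the layer lemma, and block I -/

/-- the data of a family of explored layer functions -/
structure IsLayer (T : Temp) (R k : ℕ) (a β C0 : ℝ) (f : Conf → Pt → ℝ) : Prop where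
  meas : ∀ ω ∈ DD T.V, ∀ ω' ∈ DD T.V, AgreeOff (Fk T.V k ω) ω ω' → f ω' = f ω
  supp : ∀ ω x, f ω x ≠ 0 → x ∈ Ok T k ω ∧ (dF (Ok T k ω) x : ℝ) ≤ C0 * (R : ℝ) ^ a
  mass : ∀ ω, ∑ᶠ x, |f ω x| ≤ C0
  loc : ∀ ω p (ρ : ℕ), 1 ≤ ρ → (R : ℝ) ^ a ≤ ρ → ρ ≤ R →
    ∑ᶠ x ∈ {x | x ∈ box p ρ}, |f ω x| ≤ C0 * ((ρ : ℝ) / R) ^ β

/-- for `k = 0` (block I) and, given a comparison function `g3` near the boundary, `k ≥ 1`. -/
def I_layer : Prop := ∀ β > (0 : ℝ), ∃ a0 > (0 : ℝ), ∃ c > (0 : ℝ), ∀ C0 : ℝ, ∃ C : ℝ,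
  ∀ (R : ℕ) (T : Temp) (φ u : Pt → ℝ), 1 ≤ R → Fits T R → (∀ y, |φ y| ≤ C0 / (R : ℝ) ^ 2) →
  (∀ y, φ y ≠ 0 → (R : ℝ) ≤ C0 * dF T.faceSet y) → IsGreen T.faceSet φ u →
  ∀ ρ3 : ℕ, (ρ3 : ℝ) ≤ (R : ℝ) ^ (1 - a0) → ∀ u3, IsGreen {x | ρ3 < dF T.faceSet x} φ u3 →
  Ex T.V (fun ω => (hf ω (fun x => lap (fun y => u y - u3 y) x)) ^ 2) ≤ C * ((ρ3 + 1 : ℝ) / R) ^ c

/-! ## Block J: the discrete main theorem -/

open Classical in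
def J_main : Prop := ∀ (k : ℕ) (Θ C0 : ℝ), ∃ c > (0 : ℝ), ∃ C : ℝ, ∀ (R : ℕ) (T : Temp) (φ : Pt → ℝ),
  1 ≤ R → Fits T R → IsBump (0, 0) R (C0 / (R : ℝ) ^ 2) φ →
  (∀ y, φ y ≠ 0 → (R : ℝ) ≤ C0 * dF T.faceSet y) → ∀ θ : ℝ, |θ| ≤ Θ →
  ∀ u : Conf → Pt → ℝ, (∀ ω ∈ DD T.V, IsGreen (Ok T k ω) φ (u ω)) →
  Ex T.V (fun ω => ‖cEx T.V (Fk T.V k) (fun ω' => Complex.exp (Complex.I * θ * hkf k ω' φ)) ω -
    Real.exp (- θ ^ 2 / Real.pi * pair φ (u ω))‖) ≤ C * (R : ℝ) ^ (-c)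

end Vale.Agent.P155.Skel
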