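import Vale.Agent.P155.Defs2

/-!
# P155: statement of the final theorem (continuum side definitions)
-/

namespace Vale.Agent.P155

open MeasureTheory Filter Topology TopologicalSpace

/-- The closed square of the face `f`, in the grid `a + δ ℤ²`. -/
def sqr (δ : ℝ) (a : ℂ) (f : Pt) : Set ℂ :=
  {z | ∃ s t : ℝ, 0 ≤ s ∧ s ≤ 1 ∧ 0 ≤ t ∧ t ≤ 1 ∧
    z = a + δ * (((f.1 : ℝ) + s : ℝ) + ((f.2 : ℝ) + t : ℝ) * Complex.I)}

/-- Union of the closed squares of a set of faces. -/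
def region (δ : ℝ) (a : ℂ) (S : Set Pt) : Set ℂ := ⋃ f ∈ S, sqr δ a f

/-- Temperleyan approximations of `Ω`: polygons `T n` in the grids `a n + 2 δ n ℤ²`, converging
to `Ω` in the Caratheodory sense, with boundaries converging in the Hausdorff metric (and the
polygons staying in small neighbourhoods of `Ω`).  (`bdd` is no restriction: every translate of
the grid `2 δ ℤ²` has a bounded representative `a`.) -/
structure TempApprox (Ω : Set ℂ) where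
  T : ℕ → Temp
  δ : ℕ → ℝ
  a : ℕ → ℂ
  pos : ∀ n, 0 < δ n
  mesh : Tendsto δ atTop (𝓝 0)
  bdd : ∃ C : ℝ, ∀ n, ‖a n‖ ≤ C
  cara₁ : ∀ K ⊆ Ω, IsCompact K → ∀ᶠ n in atTop, K ⊆ interior (region (δ n) (a n) (T n).faceSet)
  cara₂ : ∀ U : Set ℂ, IsOpen U → IsConnected U → (U ∩ Ω).Nonempty →
    (∃ᶠ n in atTop, U ⊆ region (δ n) (a n) (T n).faceSet) → U ⊆ Ω
  haus₁ : ∀ ε > 0, ∀ᶠ n in atTop,
    frontier (region (δ n) (a n) (T n).faceSet) ⊆ Metric.thickening ε (frontier Ω)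
  haus₂ : ∀ ε > 0, ∀ᶠ n in atTop,
    frontier Ω ⊆ Metric.thickening ε (frontier (region (δ n) (a n) (T n).faceSet))
  outer : ∀ ε > 0, ∀ᶠ n in atTop, region (δ n) (a n) (T n).faceSet ⊆ Metric.thickening ε Ω

/-- The `k`-th gasket: the closed polygon minus everything enclosed by loops of level `k`
(for `k = 0`: the boundary of the polygon). -/
def gasket (δ : ℝ) (a : ℂ) (T : Temp) (k : ℕ) (ω : Conf) : Set ℂ :=
  region δ a T.faceSet \ interior (region δ a (Ok T k ω))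

/-- The height function of the first `k` levels, integrated against `φ`. -/
noncomputable def heightInt (δ : ℝ) (a : ℂ) (k : ℕ) (ω : Conf) (φ : ℂ → ℝ) : ℝ :=
  ∑ᶠ f : Pt, (hk k ω f : ℝ) * ∫ z in sqr δ a f, φ z

open Classical in
/-- A set as a nonempty compact set (junk value if it is not). -/
noncomputable def toNC (S : Set ℂ) : NonemptyCompacts ℂ :=
  if h : IsCompact S ∧ S.Nonempty then ⟨⟨S, h.1⟩, h.2⟩ else ⟨⟨{0}, isCompact_singleton⟩, by simp⟩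

/-- Test functions on `Ω`: smooth (`C^∞`, NOT analytic) with compact support in `Ω`. -/
def IsTest (Ω : Set ℂ) (φ : ℂ → ℝ) : Prop :=
  ContDiff ℝ ((⊤ : ℕ∞) : WithTop ℕ∞) φ ∧ HasCompactSupport φ ∧ tsupport φ ⊆ Ω

/-- `⟨φ, (-Δ)⁻¹ φ⟩` with Dirichlet boundary conditions on the open set `U`, by the Dirichlet
principle. -/
noncomputable def greenEnergy (U : Set ℂ) (φ : ℂ → ℝ) : ℝ :=
  sSup {x | ∃ v, IsTest U v ∧ x = 2 * (∫ z, φ z * v z) - ∫ z, ‖fderiv ℝ v z‖ ^ 2}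

/-- The characterising properties of the signed nested carpets: `G k` is the `k`-th carpet
(`G 0 = ∂Ω`), `H k φ = ∫ h^{(k)} φ`.  The identities `gff` say that for every `k`, given the first
`k` levels, `√(π/2) (h^{(k+1)} - h^{(k)})` plus a Gaussian free field off `G (k+1)` is a Gaussian
free field off `G k`. -/
structure IsSignedCarpets {Θ : Type} [MeasurableSpace Θ] (P : Measure Θ) (Ω : Set ℂ)
    (G : ℕ → Θ → NonemptyCompacts ℂ) (H : ℕ → Θ → (ℂ → ℝ) → ℝ) : Prop where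
  zero : ∀ᵐ x ∂P, (G 0 x : Set ℂ) = frontier Ω ∧ ∀ φ, IsTest Ω φ → H 0 x φ = 0
  rep : ∀ᵐ x ∂P, ∀ k : ℕ, ∃ g : ℂ → ℝ, Measurable g ∧ (∀ z, |g z| ≤ k) ∧
    ∀ φ, IsTest Ω φ → H k x φ = ∫ z, g z * φ z
  mono : ∀ᵐ x ∂P, ∀ k, (G k x : Set ℂ) ⊆ G (k + 1) x ∧ (G k x : Set ℂ) ⊆ closure Ω
  conn : ∀ᵐ x ∂P, ∀ k, IsConnected (G k x : Set ℂ)
  null : ∀ᵐ x ∂P, ∀ k, volume ((G k x : Set ℂ) ∩ Ω) = 0
  sign : ∀ᵐ x ∂P, ∀ k, ∀ z r, 0 < r → Metric.closedBall z r ⊆ Ω →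
    Disjoint (Metric.closedBall z r) (G (k + 1) x : Set ℂ) → ∃ s : ℝ, (s = 1 ∨ s = -1) ∧
    ∀ φ, IsTest (Metric.ball z r) φ → H (k + 1) x φ - H k x φ = s * ∫ w, φ w
  meas : ∀ k, @Measurable _ _ _ (borel (NonemptyCompacts ℂ)) (G k) ∧
    ∀ φ, IsTest Ω φ → Measurable (fun x => H k x φ) ∧
      Measurable (fun x => greenEnergy (Ω \ (G k x : Set ℂ)) φ)
  gff : ∀ (k m : ℕ) (χ : Fin m → ℂ → ℝ) (φ : ℂ → ℝ), (∀ i, IsTest Ω (χ i)) → IsTest Ω φ →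
    ∀ F : (Fin (k + 1) → NonemptyCompacts ℂ) × (Fin (k + 1) → Fin m → ℝ) → ℝ,
    Continuous F → (∃ C, ∀ y, |F y| ≤ C) →
    ∫ x, (F (fun j => G j x, fun j i => H j x (χ i)) : ℂ) *
        Complex.exp (Complex.I * Real.sqrt (Real.pi / 2) * (H (k + 1) x φ - H k x φ) -
          greenEnergy (Ω \ G (k + 1) x) φ / 2) ∂P =
      ∫ x, (F (fun j => G j x, fun j i => H j x (χ i)) : ℂ) *
        Complex.exp (- greenEnergy (Ω \ G k x) φ / 2) ∂P

/-- The goal. -/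
def MainStatement : Prop :=
  ∀ Ω : Set ℂ, IsOpen Ω → Bornology.IsBounded Ω → Ω.Nonempty → SimplyConnectedSpace Ω →
  ∀ S : TempApprox Ω, ∀ ns : ℕ → ℕ, StrictMono ns → ∃ ms : ℕ → ℕ, StrictMono ms ∧
  ∃ (Θ : Type) (_ : MeasurableSpace Θ) (P : Measure Θ) (G : ℕ → Θ → NonemptyCompacts ℂ)
    (H : ℕ → Θ → (ℂ → ℝ) → ℝ), IsProbabilityMeasure P ∧ IsSignedCarpets P Ω G H ∧
  ∀ (k m : ℕ) (χ : Fin m → ℂ → ℝ), (∀ i, IsTest Ω (χ i)) →
  ∀ F : (Fin k → NonemptyCompacts ℂ) × (Fin k → Fin m → ℝ) → ℝ, Continuous F →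
    (∃ C, ∀ y, |F y| ≤ C) →
    Tendsto (fun j => let n := ns (ms j)
      Ex (S.T n).V (fun ω => F (fun l => toNC (gasket (S.δ n) (S.a n) (S.T n) l ω),
        fun l i => heightInt (S.δ n) (S.a n) l ω (χ i)))) atTop
      (𝓝 (∫ x, F (fun l => G l x, fun l i => H l x (χ i)) ∂P))

end Vale.Agent.P155
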