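import Vale.Agent.P155.Defs

/-!
# P155: further definitions (inverse Kasteleyn matrices, distances, bumps)
-/

namespace Vale.Agent.P155

open Finset

open Classical in
/-- The finite vertex set of a Temperleyan graph (the set is finite: block A1). -/
noncomputable def Temp.V (T : Temp) : Finset Pt :=
  if h : (T.closedVerts \ {T.v0}).Finite then h.toFinset else ∅

/-- The symmetric Kasteleyn matrix of a finite vertex set. -/
noncomputable def KM (V : Finset Pt) : Matrix V V ℝ :=
  fun u v => if White (u : Pt) then K u v else K v u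

open Classical in
/-- The inverse Kasteleyn matrix `K_V⁻¹(b,w)` (rows black, columns white), zero off `V`. -/
noncomputable def Kinv (V : Finset Pt) (b w : Pt) : ℝ :=
  if hb : b ∈ V then if hw : w ∈ V then (KM V)⁻¹ ⟨b, hb⟩ ⟨w, hw⟩ else 0 else 0

/-- From a translation invariant profile `A` (on points with `x + y` odd) to the plane inverse:
`K∞⁻¹(b,w) = A (b - w)` if `b - w` is of type (odd, even) and `(-1)^{y_w} A (b - w)` if it is of
type (even, odd). -/
noncomputable def Kp (A : Pt → ℝ) (b w : Pt) : ℝ :=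
  (if Odd (b.1 - w.1) then 1 else sg w.2) * A (b - w)

/-- Euclidean square norm of a lattice point, as a real. -/
noncomputable def nsq (z : Pt) : ℝ := (z.1 : ℝ) ^ 2 + (z.2 : ℝ) ^ 2

/-- Leading term of the plane profile: `x/(π r²)` on (odd,even), `y/(π r²)` on (even,odd). -/
noncomputable def Alead (z : Pt) : ℝ :=
  (if Odd z.1 then (z.1 : ℝ) else (z.2 : ℝ)) / (Real.pi * nsq z)

/-- `A` is the plane inverse Kasteleyn profile. -/
structure IsPlane (A : Pt → ℝ) : Prop where
  left : ∀ w w', White w → White w' →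
    ∑ b ∈ nbrs w', K w' b * Kp A b w = if w' = w then 1 else 0
  right : ∀ b b', Black b → Black b' →
    ∑ w ∈ nbrs b', Kp A b w * K w b' = if b' = b then 1 else 0
  asymp : ∃ C, ∀ z : Pt, Odd (z.1 + z.2) → |A z - Alead z| ≤ C / nsq z

/-- sup-norm distance as a natural number -/
def dn (u v : Pt) : ℕ := (dinf u v).toNat

/-- distance from `x` to the complement of `O` -/
noncomputable def dF (O : Set Pt) (x : Pt) : ℕ := sInf {r | ∃ y, y ∉ O ∧ dn x y ≤ r}

/-- The four-step lattice differences of a function. -/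
def Dx (u : Pt → ℝ) (x : Pt) : ℝ := u (x.1 + 1, x.2) - u x
def Dy (u : Pt → ℝ) (x : Pt) : ℝ := u (x.1, x.2 + 1) - u x

/-- `ψ` is a bump of height `H` and scale `t` around `x`: supported in the box of radius `t` and
all its differences of order `a + b ≤ 4` are at most `H t^{-a-b}`. -/
def IsBump (x : Pt) (t : ℕ) (H : ℝ) (ψ : Pt → ℝ) : Prop :=
  (∀ y, y ∉ box x t → ψ y = 0) ∧
  ∀ a b : ℕ, a + b ≤ 4 → ∀ y, |(Dx^[a] (Dy^[b] ψ)) y| ≤ H * ((t : ℝ)⁻¹) ^ (a + b)

/-- The matching `m` restricted to a box: the unexplored vertices when everything outside `B` has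
been revealed. -/
def Vin (V : Finset Pt) (B : Finset Pt) (m : Pt → Pt) : Finset Pt :=
  V.filter (fun v => v ∈ B ∧ m v ∈ B)

/-- `h(f) = ∑ f(x) h(x)` -/
noncomputable def hf (ω : Conf) (f : Pt → ℝ) : ℝ := ∑ᶠ x : Pt, f x * (h ω x : ℝ)

/-- `(h - h^{(k)})(f)` -/
noncomputable def hkf (k : ℕ) (ω : Conf) (f : Pt → ℝ) : ℝ :=
  ∑ᶠ x : Pt, f x * ((h ω x : ℝ) - (hk k ω x : ℝ))

/-- Probability of a property under the uniform measure on pairs of matchings. -/
noncomputable def Pr (V : Finset Pt) (p : Conf → Prop) : ℝ :=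
  Ex V (Set.indicator {ω | p ω} (fun _ => (1 : ℝ)))

/-- The matchings in the pair, one copy: uniform expectation over matchings of `V`. -/
noncomputable def Ex1 (V : Finset Pt) (g : (Pt → Pt) → ℝ) : ℝ :=
  (Z V : ℝ)⁻¹ * ∑ m ∈ PM V, g m

end Vale.Agent.P155
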