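import Mathlib

/-!
# P155: basic definitions for double dimers on Temperleyan graphs

Vertices and faces of the fine lattice are both indexed by `Pt = ℤ × ℤ`;
the face `(x,y)` is the unit square `[x,x+1] × [y,y+1]`.
-/

namespace Vale.Agent.P155

open Finset

/-- Points of `ℤ²`, used for vertices and for faces. -/
abbrev Pt := ℤ × ℤ

/-- White vertices: `x + y` odd. -/
def White (v : Pt) : Prop := Odd (v.1 + v.2)

/-- Black vertices: `x + y` even. -/
def Black (v : Pt) : Prop := Even (v.1 + v.2)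

/-- Nearest neighbours in `ℤ²`. -/
def Adj (u v : Pt) : Prop := |u.1 - v.1| + |u.2 - v.2| = 1

instance : DecidablePred White := fun _ => by unfold White; infer_instance
instance : DecidablePred Black := fun _ => by unfold Black; infer_instance
instance : DecidableRel Adj := fun _ _ => by unfold Adj; infer_instance

/-- `(-1)^y` as a real number. -/
def sg (y : ℤ) : ℝ := if Even y then 1 else -1

/-- The real Kasteleyn matrix of `ℤ²` (rows white, columns black). -/
def K (w b : Pt) : ℝ :=
  if b = (w.1 + 1, w.2) then 1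
  else if b = (w.1 - 1, w.2) then -1
  else if b = (w.1, w.2 + 1) then sg w.2
  else if b = (w.1, w.2 - 1) then - sg w.2
  else 0

/-- `m` is a perfect matching of the finite vertex set `V`, given as the involution exchanging
partners (and fixing all points off `V`). -/
structure IsPM (V : Finset Pt) (m : Pt → Pt) : Prop where
  invol : ∀ v, m (m v) = v
  off : ∀ v, v ∉ V → m v = v
  adj : ∀ v ∈ V, Adj v (m v)

/-- The four neighbours of a point. -/
def nbrs (v : Pt) : Finset Pt := {(v.1 + 1, v.2), (v.1 - 1, v.2), (v.1, v.2 + 1), (v.1, v.2 - 1)}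

theorem mem_nbrs {u v : Pt} : u ∈ nbrs v ↔ Adj v u := by
  obtain ⟨a, b⟩ := u
  obtain ⟨c, d⟩ := v
  simp only [nbrs, Adj, mem_insert, mem_singleton, Prod.mk.injEq]
  constructor
  · rintro (⟨rfl, rfl⟩ | ⟨rfl, rfl⟩ | ⟨rfl, rfl⟩ | ⟨rfl, rfl⟩) <;> simp
  · intro h
    rcases abs_cases (c - a) with ⟨h1, _⟩ | ⟨h1, _⟩ <;>
      rcases abs_cases (d - b) with ⟨h2, _⟩ | ⟨h2, _⟩ <;> omega

theorem finite_isPM (V : Finset Pt) : {m | IsPM V m}.Finite := by
  classical
  have hinj : Set.InjOn (fun (m : Pt → Pt) (v : V) => m v) {m | IsPM V m} := by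
    intro m hm m' hm' h
    funext v
    by_cases hv : v ∈ V
    · exact congrFun h ⟨v, hv⟩
    · rw [hm.off v hv, hm'.off v hv]
  apply Set.Finite.of_finite_image _ hinj
  have : (fun (m : Pt → Pt) (v : V) => m v) '' {m | IsPM V m} ⊆
      Set.pi Set.univ (fun v : V => (nbrs v : Set Pt)) := by
    rintro f ⟨m, hm, rfl⟩ v _
    exact_mod_cast mem_nbrs.2 (hm.adj v v.2)
  exact (Set.Finite.pi' (fun v : V => (nbrs v).finite_toSet)).subset (by
    intro f hf v
    exact this hf v trivial)

/-- The finite set of perfect matchings of `V`. -/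
noncomputable def PM (V : Finset Pt) : Finset (Pt → Pt) := (finite_isPM V).toFinset

theorem mem_PM {V : Finset Pt} {m : Pt → Pt} : m ∈ PM V ↔ IsPM V m := by
  simp [PM]

/-- The number of perfect matchings. -/
noncomputable def Z (V : Finset Pt) : ℕ := (PM V).card

/-! ## Lattice cycles and Temperleyan graphs -/

/-- A simple closed lattice polygon: distinct points `c 0, …, c (n-1)` of `ℤ²`, cyclically
adjacent. -/
structure LatCycle where
  n : ℕ
  hn : 3 ≤ n
  c : ZMod n → Pt
  inj : Function.Injective c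
  adj : ∀ i, Adj (c i) (c (i + 1))

/-- The vertices of a lattice cycle. -/
def LatCycle.verts (γ : LatCycle) : Set Pt := Set.range γ.c

/-- The undirected edge `{(j,y),(j,y+1)}` belongs to the cycle. -/
def LatCycle.vedge (γ : LatCycle) (j y : ℤ) : Prop :=
  ∃ i, (γ.c i = (j, y) ∧ γ.c (i + 1) = (j, y + 1)) ∨ (γ.c i = (j, y + 1) ∧ γ.c (i + 1) = (j, y))

/-- The face `f` is enclosed by the cycle: the horizontal ray to the left of the centre of `f`
crosses an odd number of edges of the cycle. -/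
def LatCycle.inside (γ : LatCycle) (f : Pt) : Prop :=
  Odd (Set.ncard {j : ℤ | j ≤ f.1 ∧ γ.vedge j f.2})

/-- A Temperleyan graph: a simple polygon `γ` in the coarse grid `2ℤ²` (written in coarse
coordinates) together with the boundary vertex to be deleted. -/
structure Temp where
  γ : LatCycle
  i0 : ZMod γ.n

/-- the coarse cells enclosed by the polygon -/
def Temp.cells (T : Temp) : Set Pt := {f | T.γ.inside f}

/-- the deleted (fine) vertex -/
def Temp.v0 (T : Temp) : Pt := (2 * (T.γ.c T.i0).1, 2 * (T.γ.c T.i0).2)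

/-- The fine vertices in the closed polygon. -/
def Temp.closedVerts (T : Temp) : Set Pt :=
  {v | ∃ f ∈ T.cells, 2 * f.1 ≤ v.1 ∧ v.1 ≤ 2 * f.1 + 2 ∧ 2 * f.2 ≤ v.2 ∧ v.2 ≤ 2 * f.2 + 2}

/-- The fine faces in the polygon. -/
def Temp.faceSet (T : Temp) : Set Pt :=
  {v | ∃ f ∈ T.cells, 2 * f.1 ≤ v.1 ∧ v.1 ≤ 2 * f.1 + 1 ∧ 2 * f.2 ≤ v.2 ∧ v.2 ≤ 2 * f.2 + 1}

/-! ## Double dimer configurations -/

/-- Pairs of (involutions of) matchings. -/
abbrev Conf := (Pt → Pt) × (Pt → Pt)

/-- All pairs of perfect matchings of `V`. -/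
noncomputable def DD (V : Finset Pt) : Finset Conf := PM V ×ˢ PM V

/-- Uniform expectation over pairs of perfect matchings of `V`. -/
noncomputable def Ex {E : Type*} [AddCommMonoid E] [Module ℝ E] (V : Finset Pt) (g : Conf → E) : E :=
  ((DD V).card : ℝ)⁻¹ • ∑ ω ∈ DD V, g ω

/-- `u` and `v` lie in the same component of the superposition of `ω.1` and `ω.2`. -/
def Same (ω : Conf) : Pt → Pt → Prop :=
  Relation.ReflTransGen (fun u v => v = ω.1 u ∨ v = ω.2 u)

/-- The component of `v`. -/
def comp (ω : Conf) (v : Pt) : Set Pt := {u | Same ω v u}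

/-- The double-dimer loops, as vertex sets: components of points with two different partners. -/
def Loops (ω : Conf) : Set (Set Pt) := {L | ∃ v, ω.1 v ≠ ω.2 v ∧ L = comp ω v}

/-- The vertical edge `{(j,y),(j,y+1)}` is used by the loop `L`. -/
def vedgeL (ω : Conf) (L : Set Pt) (j y : ℤ) : Prop :=
  (j, y) ∈ L ∧ (ω.1 (j, y) = (j, y + 1) ∨ ω.2 (j, y) = (j, y + 1))

/-- The loop `L` surrounds the face `f` (odd number of crossings of the left ray). -/
def surr (ω : Conf) (L : Set Pt) (f : Pt) : Prop :=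
  Odd (Set.ncard {j : ℤ | j ≤ f.1 ∧ vedgeL ω L j f.2})

/-- The number of loops surrounding the face `f`. -/
noncomputable def N (ω : Conf) (f : Pt) : ℕ := Set.ncard {L | L ∈ Loops ω ∧ surr ω L f}

open Classical in
/-- contribution of the vertical edge `{(j,y),(j,y+1)}` to the height -/
noncomputable def dh (ω : Conf) (j y : ℤ) : ℤ :=
  (if Even (j + y) then 1 else -1) *
    ((if ω.1 (j, y) = (j, y + 1) then 1 else 0) - (if ω.2 (j, y) = (j, y + 1) then 1 else 0))

/-- The height function `h = h₁ - h₂` on faces, vanishing far to the left. -/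
noncomputable def h (ω : Conf) (f : Pt) : ℤ := ∑ᶠ j ∈ {j : ℤ | j ≤ f.1}, dh ω j f.2

open Classical in
/-- The part of the height function due to the loop `L`: `±1` inside `L`, `0` outside. -/
noncomputable def hL (ω : Conf) (L : Set Pt) (f : Pt) : ℤ :=
  ∑ᶠ j ∈ {j : ℤ | j ≤ f.1 ∧ (j, f.2) ∈ L}, dh ω j f.2

/-- The level of the loop `L`: number of loops surrounding every face surrounded by `L`
(including `L`). Outermost loops have level `1`. -/
noncomputable def level (ω : Conf) (L : Set Pt) : ℕ :=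
  Set.ncard {L' | L' ∈ Loops ω ∧ ∀ f, surr ω L f → surr ω L' f}

/-- `h^{(k)}`: the sum of the signs of the `k` outermost loops around `f`. -/
noncomputable def hk (k : ℕ) (ω : Conf) (f : Pt) : ℤ :=
  ∑ᶠ L ∈ {L | L ∈ Loops ω ∧ level ω L ≤ k}, hL ω L f

/-- `O^{(k)}`: the faces surrounded by at least `k` loops, inside the polygon for `k = 0`. -/
def Ok (T : Temp) (k : ℕ) (ω : Conf) : Set Pt := {f | f ∈ T.faceSet ∧ k ≤ N ω f}

/-- The vertices strictly inside a loop of level `k` (all vertices for `k = 0`). -/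
def Vk (V : Finset Pt) (k : ℕ) (ω : Conf) : Set Pt :=
  {v | v ∈ V ∧ (k = 0 ∨ ∃ L ∈ Loops ω, level ω L = k ∧ v ∉ L ∧ surr ω L v)}

/-! ## Conditioning -/

/-- An exploration assigns to each configuration the unexplored vertices of both matchings. -/
abbrev Expl := Conf → Set Pt × Set Pt

/-- `ω'` agrees with `ω` on everything explored. -/
def AgreeOff (S : Set Pt × Set Pt) (ω ω' : Conf) : Prop :=
  (∀ v, v ∉ S.1 → ω'.1 v = ω.1 v) ∧ (∀ v, v ∉ S.2 → ω'.2 v = ω.2 v)

/-- `X` is a (stopping-set type) exploration of the double dimers on `V`: unexplored points are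
matched among themselves and the unexplored set is determined by the explored part. -/
structure IsExpl (V : Finset Pt) (X : Expl) : Prop where
  sub1 : ∀ ω ∈ DD V, ∀ v ∈ (X ω).1, v ∈ V ∧ ω.1 v ∈ (X ω).1
  sub2 : ∀ ω ∈ DD V, ∀ v ∈ (X ω).2, v ∈ V ∧ ω.2 v ∈ (X ω).2
  det : ∀ ω ∈ DD V, ∀ ω' ∈ DD V, AgreeOff (X ω) ω ω' → X ω' = X ω

open Classical in
/-- The atom of `ω`: all configurations agreeing with `ω` on the explored part. -/
noncomputable def atom (V : Finset Pt) (X : Expl) (ω : Conf) : Finset Conf :=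
  (DD V).filter (AgreeOff (X ω) ω)

/-- Conditional expectation given an exploration. -/
noncomputable def cEx {E : Type*} [AddCommMonoid E] [Module ℝ E]
    (V : Finset Pt) (X : Expl) (g : Conf → E) (ω : Conf) : E :=
  ((atom V X ω).card : ℝ)⁻¹ • ∑ ω' ∈ atom V X ω, g ω'

/-- The exploration of all loops of level `≤ k`. -/
def Fk (V : Finset Pt) (k : ℕ) : Expl := fun ω => (Vk V k ω, Vk V k ω)

/-- The exploration of everything outside a vertex set `B`, refining `X`: the unexplored points
are the points of `B`, not yet explored, whose partner is in `B` too. -/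
def outside (X : Expl) (B : Set Pt) : Expl := fun ω =>
  ({v | v ∈ (X ω).1 ∧ v ∈ B ∧ ω.1 v ∈ B}, {v | v ∈ (X ω).2 ∧ v ∈ B ∧ ω.2 v ∈ B})

/-! ## Discrete potential theory -/

/-- sup-norm distance on `ℤ²` -/
def dinf (u v : Pt) : ℤ := max |u.1 - v.1| |u.2 - v.2|

/-- sup-norm box of radius `r` around `x` -/
noncomputable def box (x : Pt) (r : ℕ) : Finset Pt := Finset.Icc (x.1 - r) (x.1 + r) ×ˢ Finset.Icc (x.2 - r) (x.2 + r)

/-- The discrete Laplacian (sum of the four differences). -/
def lap (u : Pt → ℝ) (x : Pt) : ℝ :=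
  u (x.1 + 1, x.2) + u (x.1 - 1, x.2) + u (x.1, x.2 + 1) + u (x.1, x.2 - 1) - 4 * u x

/-- Dirichlet energy of a finitely supported function. -/
noncomputable def energy (u : Pt → ℝ) : ℝ :=
  ∑ᶠ x : Pt, ((u (x.1 + 1, x.2) - u x) ^ 2 + (u (x.1, x.2 + 1) - u x) ^ 2)

/-- `u` solves the Dirichlet problem `-Δu = φ` on the finite set `O`, `u = 0` off `O`. -/
structure IsGreen (O : Set Pt) (φ u : Pt → ℝ) : Prop where
  off : ∀ x, x ∉ O → u x = 0
  eq : ∀ x ∈ O, - lap u x = φ x

/-- Pairing of functions on faces. -/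
noncomputable def pair (φ u : Pt → ℝ) : ℝ := ∑ᶠ x : Pt, φ x * u x

end Vale.Agent.P155
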