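import Vale.Agent.P155.FinalStmt
import Vale.Agent.P155.K.Conn2

/-!
# P155: the field `outer` of `TempApprox` is automatic when the complement of `closure Ω` is
connected
-/

namespace Vale.Agent.P155

open Topology Filter TopologicalSpace

/-- A preconnected set which does not meet the frontier of `U` and contains a point off `U` does
not meet `U` (for closed `U`). -/
theorem disjoint_of_frontier {C U : Set ℂ} (hC : IsPreconnected C) (hU : IsClosed U)
    (hf : Disjoint C (frontier U)) {w : ℂ} (hw : w ∈ C) (hwU : w ∉ U) : Disjoint C U := by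
  rw [Set.disjoint_left]
  intro z hz hzU
  have h1 : C ⊆ interior U ∪ Uᶜ := by
    intro y hy
    by_cases hyU : y ∈ U
    · left
      by_contra h2
      exact Set.disjoint_left.1 hf hy ⟨subset_closure hyU, h2⟩
    · right; exact hyU
  have hzi : z ∈ interior U := by
    rcases h1 hz with h | h
    · exact h
    · exact absurd hzU h
  obtain ⟨y, -, hy1, hy2⟩ := hC _ _ isOpen_interior hU.isOpen_compl h1 ⟨z, hz, hzi⟩ ⟨w, hw, hwU⟩
  exact hy2 (interior_subset hy1)

/-- a ray to infinity -/
theorem ray_preconn (w : ℂ) : IsPreconnected ((fun t : ℝ => (t : ℂ) * w) '' Set.Ici 1) :=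
  isPreconnected_Ici.image _ (by fun_prop)

/-- If the complement of the closure of `Ω` is connected, the Hausdorff convergence of the
boundaries forces the polygons to stay in small neighbourhoods of `Ω`. -/
theorem outer_of_connected {Ω : Set ℂ} (hb : Bornology.IsBounded Ω)
    (hc : IsConnected (closure Ω)ᶜ) (D : ℕ → Set ℂ) (hD : ∀ n, IsCompact (D n))
    (haus₁ : ∀ ε > 0, ∀ᶠ n in atTop, frontier (D n) ⊆ Metric.thickening ε (frontier Ω)) :
    ∀ ε > 0, ∀ᶠ n in atTop, D n ⊆ Metric.thickening ε Ω := by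
  intro ε hε
  obtain ⟨M0, hM0⟩ := hb.subset_closedBall 0
  have hcl : closure Ω ⊆ Metric.closedBall 0 M0 :=
    closure_minimal hM0 Metric.isClosed_closedBall
  set M : ℝ := |M0| + 2 with hM
  have hM0' : M0 ≤ |M0| := le_abs_self _
  have hMpos : 0 < M := by positivity
  -- a far point
  set w : ℂ := (M : ℂ) with hw
  have hwn : ‖w‖ = M := by rw [hw, Complex.norm_real, Real.norm_of_nonneg hMpos.le]
  -- the case of an empty set
  rcases Ω.eq_empty_or_nonempty with hΩ | hΩ
  · filter_upwards [haus₁ 1 one_pos] with n hn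
    rw [hΩ] at hn ⊢
    simp only [frontier_empty, Metric.thickening_empty, Set.subset_empty_iff] at hn ⊢
    by_contra hne
    rw [← ne_eq, ← Set.nonempty_iff_ne_empty] at hne
    rcases frontier_eq_empty_iff.1 hn with h | h
    · exact hne.ne_empty h
    · have := hD n
      rw [h] at this
      exact (NoncompactSpace.noncompact_univ (X := ℂ)) this
  -- points with norm ≥ M are at distance ≥ 2 from closure Ω
  have hfar : ∀ z : ℂ, M ≤ ‖z‖ → ∀ y ∈ closure Ω, 2 ≤ dist z y := by
    intro z hz y hy
    have h1 := hcl hy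
    rw [mem_closedBall_zero_iff] at h1
    have h2 : ‖z‖ ≤ ‖z - y‖ + ‖y‖ := by
      calc ‖z‖ = ‖(z - y) + y‖ := by ring_nf
        _ ≤ _ := norm_add_le _ _
    rw [dist_eq_norm]
    linarith
  have hcne : (closure Ω).Nonempty := hΩ.closure
  -- the open sets U k and their components
  set U : ℕ → Set ℂ := fun k => {z | (1 : ℝ) / (k + 1) < Metric.infDist z (closure Ω)} with hU
  have hUo : ∀ k, IsOpen (U k) := fun k =>
    isOpen_lt continuous_const (Metric.continuous_infDist_pt _)
  have hfarU : ∀ k, ∀ z : ℂ, M ≤ ‖z‖ → z ∈ U k := by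
    intro k z hz
    have h1 : (2 : ℝ) ≤ Metric.infDist z (closure Ω) := by
      rw [Metric.le_infDist hcne]
      exact fun y hy => hfar z hz y hy
    have h2 : (1 : ℝ) / (k + 1) ≤ 1 := by
      rw [div_le_one (by positivity)]
      have : (0 : ℝ) ≤ k := Nat.cast_nonneg k
      linarith
    show (1 : ℝ) / (k + 1) < _
    linarith
  have hwU : ∀ k, w ∈ U k := fun k => hfarU k w hwn.ge
  set Ck : ℕ → Set ℂ := fun k => connectedComponentIn (U k) w with hCk
  have hCo : ∀ k, IsOpen (Ck k) := fun k => (hUo k).connectedComponentIn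
  have hUmono : Monotone U := by
    intro j k hjk z hz
    have h1 : (1 : ℝ) / (k + 1) ≤ 1 / (j + 1) := by
      apply one_div_le_one_div_of_le (by positivity)
      have : (j : ℝ) ≤ k := by exact_mod_cast hjk
      linarith
    exact lt_of_le_of_lt h1 hz
  have hCmono : Monotone Ck := fun j k hjk => connectedComponentIn_mono w (hUmono hjk)
  -- the components exhaust the complement
  have hwc : w ∈ (closure Ω)ᶜ := by
    intro h
    have := hfar w hwn.ge w h
    rw [dist_self] at this
    linarith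
  have hpath : IsPathConnected (closure Ω)ᶜ :=
    (isClosed_closure.isOpen_compl.isConnected_iff_isPathConnected).1 hc
  have hex : ∀ z ∈ (closure Ω)ᶜ, ∃ k, z ∈ Ck k := by
    intro z hz
    obtain ⟨γ, hγ⟩ := hpath.joinedIn w hwc z hz
    have hcomp : IsCompact (Set.range γ) := isCompact_range γ.continuous
    have hsub : Set.range γ ⊆ ⋃ k, U k := by
      rintro _ ⟨t, rfl⟩
      have h1 : γ t ∉ closure Ω := hγ t
      have h2 : 0 < Metric.infDist (γ t) (closure Ω) :=
        (isClosed_closure.notMem_iff_infDist_pos hcne).1 h1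
      obtain ⟨k, hk⟩ := exists_nat_one_div_lt h2
      exact Set.mem_iUnion.2 ⟨k, hk⟩
    obtain ⟨k, hk⟩ := hcomp.elim_directed_cover U hUo hsub hUmono.directed_le
    refine ⟨k, ?_⟩
    have hpc : IsPreconnected (Set.range γ) := isPreconnected_range γ.continuous
    exact hpc.subset_connectedComponentIn ⟨0, γ.source⟩ hk ⟨1, γ.target⟩
  -- the compact set
  set Kc : Set ℂ := Metric.closedBall 0 M ∩ (Metric.thickening ε Ω)ᶜ with hKc
  have hKcomp : IsCompact Kc :=
    (isCompact_closedBall 0 M).inter_right Metric.isOpen_thickening.isClosed_compl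
  have hKsub : Kc ⊆ ⋃ k, Ck k := by
    rintro z ⟨-, hz⟩
    have h1 : z ∉ closure Ω := by
      intro h
      apply hz
      exact Metric.closure_subset_thickening hε Ω h
    obtain ⟨k, hk⟩ := hex z h1
    exact Set.mem_iUnion.2 ⟨k, hk⟩
  obtain ⟨k, hk⟩ := hKcomp.elim_directed_cover Ck hCo hKsub hCmono.directed_le
  filter_upwards [haus₁ 1 one_pos, haus₁ (1 / (k + 1)) (by positivity)] with n hn1 hnk
  -- far points are not in `D n`
  have hfr1 : ∀ z ∈ frontier (D n), ‖z‖ < M := by
    intro z hz
    obtain ⟨y, hy, hzy⟩ := Metric.mem_thickening_iff.1 (hn1 hz)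
    by_contra hge
    have := hfar z (not_lt.1 hge) y (frontier_subset_closure hy)
    linarith
  have hout : ∀ z : ℂ, M ≤ ‖z‖ → z ∉ D n := by
    intro z hz hzD
    obtain ⟨r, hr⟩ := (hD n).isBounded.subset_closedBall 0
    have hz0 : 0 < ‖z‖ := hMpos.trans_le hz
    have hdis : Disjoint ((fun t : ℝ => (t : ℂ) * z) '' Set.Ici 1) (frontier (D n)) := by
      rw [Set.disjoint_left]
      rintro _ ⟨t, ht, rfl⟩ hf
      have h1 := hfr1 _ hf
      have ht1 : (1 : ℝ) ≤ t := ht
      simp only [norm_mul, Complex.norm_real, Real.norm_eq_abs] at h1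
      rw [abs_of_nonneg (by linarith)] at h1
      nlinarith
    have hbig : ((|r| / ‖z‖ + 1 + 1 / ‖z‖ : ℝ) : ℂ) * z ∉ D n := by
      intro hmem
      have h1 := hr hmem
      rw [mem_closedBall_zero_iff, norm_mul, Complex.norm_real, Real.norm_eq_abs,
        abs_of_nonneg (by positivity), add_mul, add_mul, div_mul_cancel₀ _ hz0.ne',
        div_mul_cancel₀ _ hz0.ne'] at h1
      have := le_abs_self r
      linarith
    have := disjoint_of_frontier (ray_preconn z) (hD n).isClosed hdis
      ⟨|r| / ‖z‖ + 1 + 1 / ‖z‖, by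
        show (1 : ℝ) ≤ _
        have : 0 ≤ |r| / ‖z‖ := by positivity
        have : 0 < 1 / ‖z‖ := by positivity
        linarith, rfl⟩ hbig
    exact Set.disjoint_left.1 this ⟨1, Set.self_mem_Ici, by simp⟩ hzD
  have hdisC : Disjoint (Ck k) (frontier (D n)) := by
    rw [Set.disjoint_left]
    intro z hz hf
    have h1 : z ∈ U k := connectedComponentIn_subset _ _ hz
    obtain ⟨y, hy, hzy⟩ := Metric.mem_thickening_iff.1 (hnk hf)
    have h2 : Metric.infDist z (closure Ω) ≤ dist z y :=
      Metric.infDist_le_dist_of_mem (frontier_subset_closure hy)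
    have h3 : (1 : ℝ) / (k + 1) < Metric.infDist z (closure Ω) := h1
    linarith
  have hd := disjoint_of_frontier isPreconnected_connectedComponentIn (hD n).isClosed hdisC
    (mem_connectedComponentIn (hwU k)) (hout w hwn.ge)
  intro z hz
  by_contra hnot
  have hzM : ‖z‖ ≤ M := by
    by_contra hge
    exact hout z (not_le.1 hge).le hz
  have hzK : z ∈ Kc := ⟨by rw [mem_closedBall_zero_iff]; exact hzM, hnot⟩
  exact Set.disjoint_left.1 hd (hk hzK) hz

/-- Temperleyan approximations of `Ω`: `TempApprox` without the condition `outer`. -/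
structure TempApprox₀ (Ω : Set ℂ) where
  T : ℕ → Temp
  δ : ℕ → ℝ
  a : ℕ → ℂ
  pos : ∀ n, 0 < δ n
  mesh : Tendsto δ atTop (𝓝 0)
  bdd : ∃ C : ℝ, ∀ n, ‖a n‖ ≤ C
  cara₁ : ∀ K ⊆ Ω, IsCompact K → ∀ᶠ n in atTop, K ⊆ interior (region (δ n) (a n) (T n).faceSet)
  cara₂ : ∀ U : Set ℂ, IsOpen U → IsConnected U → (U ∩ Ω).Nonempty →
    (∃ᶠ n in atTop, U ⊆ region (δ n) (a n) (T n).faceSet) → U ⊆ Ω
  haus₁ : ∀ ε > 0, ∀ᶠ n in atTop,
    frontier (region (δ n) (a n) (T n).faceSet) ⊆ Metric.thickening ε (frontier Ω)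
  haus₂ : ∀ ε > 0, ∀ᶠ n in atTop,
    frontier Ω ⊆ Metric.thickening ε (frontier (region (δ n) (a n) (T n).faceSet))

/-- When the complement of `closure Ω` is connected (for example when `Ω` is a Jordan domain), the
condition `outer` follows from the other ones. -/
def TempApprox₀.toTempApprox {Ω : Set ℂ} (S : TempApprox₀ Ω) (hb : Bornology.IsBounded Ω)
    (hc : IsConnected (closure Ω)ᶜ) : TempApprox Ω where
  T := S.T
  δ := S.δ
  a := S.a
  pos := S.pos
  mesh := S.mesh
  bdd := S.bdd
  cara₁ := S.cara₁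
  cara₂ := S.cara₂
  haus₁ := S.haus₁
  haus₂ := S.haus₂
  outer := outer_of_connected hb hc _
    (fun n => KConn.isCompact_region (S.pos n) (A1.faceSet_finite (S.T n))) S.haus₁

end Vale.Agent.P155
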